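import Vale.Agent.P165T.Fin3

/-! Tree metric without the branching property. -/

open Classical

namespace Vale.Agent.P165W

/-- the properties of the distance of a locally finite tree -/
class TrW (X : Type*) where
  d : X → X → ℕ
  self : ∀ u, d u u = 0
  comm : ∀ u v, d u v = d v u
  tri : ∀ u v w, d u w ≤ d u v + d v w
  eqz : ∀ u v, d u v = 0 → u = v
  uniq : ∀ r u u' v, d r v = d r u + d u v → d r v = d r u' + d u' v → d r u = d r u' → u = u'
  pre : ∀ r v j, j ≤ d r v → ∃ u, d r u = j ∧ d r v = d r u + d u v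
  trip : ∀ r v t, ∃ u, d r v = d r u + d u v ∧ d r t = d r u + d u t ∧
    d r v + d r t = d v t + 2 * d r u
  fin : ∀ r n, {v | d r v ≤ n}.Finite

variable {TX : Type*} [TrW TX]

def dd (u v : TX) : ℕ := TrW.d u v

def half (s t : TX) : Set TX := {v | dd v t < dd v s}

def cone (r u : TX) : Set TX := {v | dd r v = dd r u + dd u v}

lemma dd_self (u : TX) : dd u u = 0 := TrW.self u
lemma dd_comm (u v : TX) : dd u v = dd v u := TrW.comm u v
lemma dd_tri (u v w : TX) : dd u w ≤ dd u v + dd v w := TrW.tri u v w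
lemma dd_eq_zero {u v : TX} : dd u v = 0 ↔ u = v := ⟨TrW.eqz u v, fun h => h ▸ dd_self u⟩
lemma geo_mem {r u v : TX} : v ∈ cone r u ↔ dd r v = dd r u + dd u v := Iff.rfl
lemma cone_uniq {r u u' v : TX} (h : v ∈ cone r u) (h' : v ∈ cone r u')
    (e : dd r u = dd r u') : u = u' := TrW.uniq r u u' v h h' e
lemma exists_pre (r v : TX) {j : ℕ} (hj : j ≤ dd r v) : ∃ u, dd r u = j ∧ v ∈ cone r u :=
  TrW.pre r v j hj
lemma tripod (r v t : TX) :
    ∃ u, v ∈ cone r u ∧ t ∈ cone r u ∧ dd r v + dd r t = dd v t + 2 * dd r u := TrW.trip r v t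
lemma ball_fin (r : TX) (n : ℕ) : {v | dd r v ≤ n}.Finite := TrW.fin r n
lemma cone_trans {r u u' v : TX} (h : u' ∈ cone r u) (h' : v ∈ cone r u') : v ∈ cone r u := by
  rw [geo_mem] at *
  have := dd_tri u u' v
  have := dd_tri r u v
  omega
lemma cone_nest {r u u' v : TX} (h : v ∈ cone r u) (h' : v ∈ cone r u')
    (e : dd r u ≤ dd r u') : u' ∈ cone r u := by
  obtain ⟨x, h1, h2⟩ := exists_pre r u' e
  rwa [cone_uniq h (cone_trans h2 h') h1.symm]

lemma self_mem_cone (r u : TX) : u ∈ cone r u := by simp [geo_mem, dd_self]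
lemma cone_self (r : TX) : cone r r = Set.univ := by ext v; simp [geo_mem, dd_self]
lemma root_not_mem_cone {r u : TX} (h : r ≠ u) : r ∉ cone r u := by
  rw [geo_mem, dd_self]
  intro e
  exact h (dd_eq_zero.1 (by omega))
lemma cone_cut {r u w w' : TX} (hw : w ∉ cone r u) (hw' : w' ∈ cone r u) :
    dd w w' = dd w u + dd u w' := by
  obtain ⟨m, h1, h2, h3⟩ := tripod r w w'
  by_cases hle : dd r u ≤ dd r m
  · exact absurd (cone_trans (cone_nest hw' h2 hle) h1) hw
  · have h4 := cone_nest h2 hw' (by omega)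
    rw [geo_mem] at h1 h2 h4 hw'
    have := dd_tri w m u
    have := dd_tri w u w'
    have := dd_comm w m
    omega
lemma geo_pred {r u : TX} (h : r ≠ u) :
    ∃ q, dd r q + 1 = dd r u ∧ dd q u = 1 ∧ (∀ z ∈ cone r u, dd z q = dd z u + 1) ∧
      ∀ z ∉ cone r u, dd z u = dd z q + 1 := by
  have h0 : dd r u ≠ 0 := fun e => h (dd_eq_zero.1 e)
  obtain ⟨q, hq, hu⟩ := exists_pre r u (j := dd r u - 1) (by omega)
  have hqu : dd q u = 1 := by rw [geo_mem] at hu; omega
  refine ⟨q, by omega, hqu, fun z hz => ?_, fun z hz => ?_⟩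
  · have hq' : q ∉ cone r u := by rw [geo_mem]; omega
    have := cone_cut hq' hz
    have := dd_comm z q
    have := dd_comm z u
    omega
  · obtain ⟨m, h1, h2, h3⟩ := tripod r z u
    by_cases hle : dd r u ≤ dd r m
    · exact absurd (cone_trans (cone_nest (self_mem_cone r u) h2 hle) h1) hz
    · have h4 := cone_nest h2 hu (by omega)
      rw [geo_mem] at h1 h2 h4
      have := dd_tri z m q
      have := dd_tri z q u
      have := dd_comm z m
      omega
lemma cone_reroot {r u w : TX} (hw : w ∉ cone r u) : cone w u = cone r u := by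
  have h : r ≠ u := by
    rintro rfl
    exact hw (by rw [cone_self]; trivial)
  obtain ⟨q, -, -, -, h4⟩ := geo_pred h
  ext v
  refine ⟨fun hv => ?_, fun hv => cone_cut hw hv⟩
  by_contra hv'
  rw [geo_mem] at hv
  have := h4 w hw
  have := h4 v hv'
  have := dd_tri w q v
  have := dd_comm v q
  have := dd_comm v u
  omega
lemma cone_half {r u : TX} (h : r ≠ u) :
    ∃ q, dd q u = 1 ∧ cone r u = half q u ∧ (cone r u)ᶜ = half u q := by
  obtain ⟨q, -, h2, h3, h4⟩ := geo_pred h
  refine ⟨q, h2, ?_, ?_⟩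
  · ext z
    change _ ↔ dd z u < dd z q
    refine ⟨fun hz => by have := h3 z hz; omega, fun hz => ?_⟩
    by_contra hz'
    have := h4 z hz'
    omega
  · ext z
    change _ ↔ dd z q < dd z u
    refine ⟨fun hz => by have := h4 z hz; omega, fun hz hz' => ?_⟩
    have := h3 z hz'
    omega
lemma geo_adj {m a : TX} (h : dd m a = 1) :
    (∀ z ∈ cone m a, dd z m = dd z a + 1) ∧ ∀ z ∉ cone m a, dd z a = dd z m + 1 := by
  have hne : m ≠ a := fun e => by rw [dd_eq_zero.2 e] at h; omega
  obtain ⟨q, h1, -, h3, h4⟩ := geo_pred hne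
  have : m = q := dd_eq_zero.1 (by omega)
  subst this
  exact ⟨h3, h4⟩
lemma geo_half {s t : TX} (h : dd s t = 1) : half s t = cone s t := by
  obtain ⟨h1, h2⟩ := geo_adj h
  ext z
  change dd z t < dd z s ↔ _
  refine ⟨fun hz => ?_, fun hz => by have := h1 z hz; omega⟩
  by_contra hz'
  have := h2 z hz'
  omega
lemma CfgT_geo {r u a b s : TX} (ha : a ∈ cone r u) (hb : b ∈ cone r u)
    (hs : b ∈ cone a s) : s ∈ cone r u := by
  by_contra h
  have h1 := cone_cut h ha
  have h2 := cone_cut h hb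
  have h3 : dd a b = dd a s + dd s b := hs
  have h4 := dd_tri a u b
  have h5 := dd_comm a s
  have h6 := dd_comm a u
  have h7 : dd s u = 0 := by omega
  rw [dd_eq_zero] at h7
  exact h (h7 ▸ self_mem_cone r s)

lemma CfgT_ball {r c t s' s : TX} {ρ : ℕ} (ht : t ∈ cone r c) (hs' : s' ∈ cone r t)
    (hρ : ρ ≤ dd c t) (hd : dd s' s ≤ ρ) : s ∈ cone r c := by
  by_contra h
  have h0 := cone_trans ht hs'
  have h1 := cone_cut h h0
  have h2 : dd r t = dd r c + dd c t := ht
  have h3 : dd r s' = dd r t + dd t s' := hs'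
  have h4 : dd r s' = dd r c + dd c s' := h0
  have h5 := dd_comm s s'
  have h7 : dd s c = 0 := by omega
  rw [dd_eq_zero] at h7
  exact h (h7 ▸ self_mem_cone r s)


/-- branch vertices -/
def Br (v : TX) : Prop := ∃ a b c, dd v a = 1 ∧ dd v b = 1 ∧ dd v c = 1 ∧ a ≠ b ∧ a ≠ c ∧ b ≠ c

/-- the number of branch vertices on the geodesic from `u` to `v`, not counting `u` -/
noncomputable def db (u v : TX) : ℕ := {b | Br b ∧ v ∈ cone u b ∧ b ≠ u}.ncard

end Vale.Agent.P165W
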