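import Vale.Agent.P165.Defs

/-! Definition used in the statement: non-elementary cocompact actions on locally finite trees. -/

namespace Vale.Agent.P165W

/-- `T` is a locally finite tree without leaves which is not a line, `G` acts on it by
automorphisms with finitely many orbits and fixes no end: for every geodesic ray `r` some `g` maps
`r` to a ray having no common tail with `r`. -/
structure NonElemAct {X : Type*} (T : SimpleGraph X) (G : Type*) [Group G] [MulAction G X] :
    Prop where
  tree : T.IsTree
  locfin : ∀ v, (T.neighborSet v).Finite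
  deg : ∀ v, 2 ≤ (T.neighborSet v).ncard
  branch : ∃ v, 3 ≤ (T.neighborSet v).ncard
  adj : ∀ (g : G) (u v : X), T.Adj (g • u) (g • v) ↔ T.Adj u v
  cof : ∃ s : Finset X, ∀ v, ∃ g : G, g • v ∈ s
  noend : ∀ r : ℕ → X, (∀ n, T.Adj (r n) (r (n + 1))) → (∀ n, T.dist (r 0) (r n) = n) →
    ∃ g : G, ¬ ∃ k l : ℕ, ∀ n, g • r (n + k) = r (n + l)

end Vale.Agent.P165W
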