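import Vale.Agent.P165.Defs

/-! Definition used in the statement: non-elementary actions on locally finite trees. -/

namespace Vale.Agent.P165W

/-- `T` is a locally finite tree and `G` acts on it by automorphisms, non-elementarily: an orbit
accumulates at three different ends (arbitrarily far orbit points in three different directions
from one vertex `v`), and no end is fixed (for every geodesic ray `r` some `g` maps `r` to a ray
having no common tail with `r`). -/
structure NonElem {X : Type*} (T : SimpleGraph X) (G : Type*) [Group G] [MulAction G X] :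
    Prop where
  tree : T.IsTree
  locfin : ∀ v, (T.neighborSet v).Finite
  adj : ∀ (g : G) (u v : X), T.Adj (g • u) (g • v) ↔ T.Adj u v
  three : ∃ o v : X, ∀ n : ℕ, ∃ g : Fin 3 → G, (∀ i, n ≤ T.dist v (g i • o)) ∧
    ∀ i j, i ≠ j → T.dist (g i • o) (g j • o) = T.dist v (g i • o) + T.dist v (g j • o)
  noend : ∀ r : ℕ → X, (∀ n, T.Adj (r n) (r (n + 1))) → (∀ n, T.dist (r 0) (r n) = n) →
    ∃ g : G, ¬ ∃ k l : ℕ, ∀ n, g • r (n + k) = r (n + l)

end Vale.Agent.P165W
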