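import Vale.Agent.P165W.W2

open Classical

namespace Vale.Agent.P165W

variable {TX : Type*} [TrW TX]

/-- a ray of branch vertices lies on a geodesic ray, and common tails transfer -/
lemma ray_of_br {r : ℕ → TX} (hb : ∀ n, Br (r n)) (h1 : ∀ n, db (r n) (r (n + 1)) = 1)
    (h2 : ∀ n, db (r 0) (r n) = n) : ∃ s : ℕ → TX, (∀ n, dd (s n) (s (n + 1)) = 1) ∧
      (∀ n, dd (s 0) (s n) = n) ∧ ∀ f : TX → TX, (∀ u v, dd (f u) (f v) = dd u v) →
        (∃ k l : ℕ, ∀ n, f (r (n + k)) = r (n + l)) → ∃ k l : ℕ, ∀ n, f (s (n + k)) = s (n + l) := by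
  have h3 : ∀ n j, db (r n) (r (n + j)) ≤ j := fun n j => by
    induction j with
    | zero => exact (db_self _).le
    | succ j ih =>
      have a1 := db_tri (hb n) (hb (n + j)) (hb (n + j + 1))
      have a2 := h1 (n + j)
      change db (r n) (r (n + j + 1)) ≤ j + 1
      omega
  have hc : ∀ n m, n ≤ m → r m ∈ cone (r 0) (r n) := fun n m h => by
    obtain ⟨j, rfl⟩ := Nat.exists_eq_add_of_le h
    refine (db_btw (hb 0) (hb n) (hb (n + j))).1 ?_
    have a1 := db_tri (hb 0) (hb n) (hb (n + j))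
    have a2 := h3 n j
    have a3 := h2 n
    have a4 := h2 (n + j)
    omega
  choose s hs1 hs2 using fun i => exists_pre (r 0) (r i) ((h2 i).ge.trans (db_le _ _))
  have hs : ∀ i m, i ≤ m → r m ∈ cone (r 0) (s i) := fun i m h => cone_trans (hs2 i) (hc i m h)
  have h0 : s 0 = r 0 := (dd_eq_zero.1 (hs1 0)).symm
  have key : ∀ k n m, n + dd (r 0) (r k) ≤ m + k → dd (r k) (s (n + dd (r 0) (r k))) = n ∧
      dd (r k) (r (m + k)) = n + dd (s (n + dd (r 0) (r k))) (r (m + k)) := fun k n m h => by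
    have a1 := hs _ _ h
    have a2 := hc k (m + k) (by omega)
    have a3 := hs1 (n + dd (r 0) (r k))
    have a4 := cone_nest a2 a1 (by omega)
    rw [geo_mem] at a1 a2 a4
    omega
  refine ⟨s, fun n => ?_, fun n => by rw [h0, hs1], ?_⟩
  · have a1 := hs1 n
    have a2 := hs1 (n + 1)
    have a3 := cone_nest (hs n (n + 1) (by omega)) (hs2 (n + 1)) (by omega)
    rw [geo_mem] at a3
    omega
  · rintro f hf ⟨k, l, h⟩
    refine ⟨dd (r 0) (r k), dd (r 0) (r l), fun n => ?_⟩
    obtain ⟨a1, a2⟩ := key k n (n + dd (r 0) (r k) + dd (r 0) (r l)) (by omega)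
    obtain ⟨a3, a4⟩ := key l n (n + dd (r 0) (r k) + dd (r 0) (r l)) (by omega)
    have e := h 0
    rw [zero_add, zero_add] at e
    rw [← hf, e] at a1
    rw [← hf (r k), ← hf (s _), e, h] at a2
    exact cone_uniq (r := r l) (v := r (n + dd (r 0) (r k) + dd (r 0) (r l) + l))
      (geo_mem.2 (by omega)) (geo_mem.2 (by omega)) (by omega)

end Vale.Agent.P165W
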