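import Vale.Agent.P165W.W3
import Vale.Agent.P165W.W4
import Vale.Agent.P165W.Defs

open Classical

namespace Vale.Agent.P165W

open Vale.Agent.P151 Vale.Agent.P165

universe u

variable {V : Type*}

theorem main8 {TX : Type*} [TrW TX] {Γ : SimpleGraph V} {G : Type u} [Group G] [MulAction G V]
    (hG : Geom Γ G) [MulAction G TX] (iso : ∀ (g : G) (u v : TX), dd (g • u) (g • v) = dd u v)
    (cof : ∃ s : Finset TX, ∀ v, ∃ g : G, g • v ∈ s)
    (hl : ∀ v : TX, ∃ a b, dd v a = 1 ∧ dd v b = 1 ∧ a ≠ b) {o : TX} (ho : Br o)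
    (noend : ∀ r : ℕ → TX, (∀ n, dd (r n) (r (n + 1)) = 1) → (∀ n, dd (r 0) (r n) = n) →
      ∃ g : G, ¬ ∃ k l : ℕ, ∀ n, g • r (n + k) = r (n + l)) : pc Γ < pu Γ := by
  have hi := fun (g : G) (u v : TX) => db_iso (MulAction.toPerm g) (iso g) u v
  have hb : ∀ (g : G) (u : TX), Br (g • u) ↔ Br u := fun g u => (hi g u u).1
  have hd : ∀ (g : G) (u v : TX), db (g • u) (g • v) = db u v := fun g u v => (hi g u v).2
  obtain ⟨s, hs⟩ := cof
  have hR : ∀ v : TX, ∃ z, Br z ∧ dd v z ≤ s.sup fun i => dd i o := by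
    intro v
    obtain ⟨g, hg⟩ := hs v
    refine ⟨g⁻¹ • o, (hb _ _).2 ho, ?_⟩
    rw [← iso g, smul_inv_smul]
    exact Finset.le_sup (f := fun i => dd i o) hg
  let Y := {v : TX // Br v}
  letI : MulAction G Y :=
    { smul := fun g v => ⟨g • v.1, (hb g v.1).2 v.2⟩
      one_smul := fun v => Subtype.ext (one_smul G v.1)
      mul_smul := fun g g' v => Subtype.ext (mul_smul g g' v.1) }
  have hsm : ∀ (g : G) (v : Y), (g • v).1 = g • v.1 := fun _ _ => rfl
  have hfin : ∀ (r : Y) (n : ℕ), {v : Y | db r.1 v.1 ≤ n}.Finite := by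
    intro r n
    refine ((ball_fin r.1 ((2 * (s.sup fun i => dd i o) + 2) * (n + 1))).preimage
      Subtype.val_injective.injOn).subset fun v hv => ?_
    exact (db_fin hR r.1 v.1).trans (Nat.mul_le_mul_left _ (Nat.succ_le_succ hv))
  have hcof : ∃ s' : Finset Y, ∀ v : Y, ∃ g : G, g • v ∈ s' := by
    refine ⟨s.subtype Br, fun v => ?_⟩
    obtain ⟨g, hg⟩ := hs v.1
    exact ⟨g, Finset.mem_subtype.2 hg⟩
  have hcnt : ∃ B : ℕ, ∀ r, (hfin r 1).toFinset.card ≤ B := by
    obtain ⟨s', hs'⟩ := hcof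
    refine ⟨s'.sup fun r => (hfin r 1).toFinset.card, fun r => ?_⟩
    obtain ⟨g, hg⟩ := hs' r
    refine le_trans ?_ (Finset.le_sup (f := fun r => (hfin r 1).toFinset.card) hg)
    refine Finset.card_le_card_of_injOn (fun v => g • v) (fun v hv => ?_)
      fun a _ b _ h => MulAction.injective g h
    have hv' : db r.1 v.1 ≤ 1 := by simpa using hv
    have : db (g • r).1 (g • v).1 ≤ 1 := by rwa [hsm, hsm, hd]
    simpa using this
  letI : P165T.TrS Y :=
    { d := fun u v => db u.1 v.1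
      self := fun u => db_self u.1
      comm := fun u v => db_comm u.2 v.2
      tri := fun u v w => db_tri u.2 v.2 w.2
      eqz := fun u v h => by
        by_contra k
        have := db_pos v.2 (u := u.1) fun e => k (Subtype.ext e)
        omega
      uniq := fun r u u' v h h' e => Subtype.ext (db_uniq u.2 u'.2 ((db_btw r.2 u.2 v.2).1 h)
        ((db_btw r.2 u'.2 v.2).1 h') e)
      pre := fun r v j hj => by
        obtain ⟨u, h1, h2, h3⟩ := db_pre r.2 v.1 hj
        exact ⟨⟨u, h1⟩, h2, db_add h3⟩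
      trip := fun r v t => by
        obtain ⟨m, h1, h2, h3, h4⟩ := br_trip r.2 v.2 t.2
        refine ⟨⟨m, h1⟩, db_add h2, db_add h3, ?_⟩
        have e1 := db_add h2
        have e2 := db_add h3
        have e3 := db_add h4
        have e4 := db_comm v.2 h1
        change db r.1 v.1 + db r.1 t.1 = db v.1 t.1 + 2 * db r.1 m
        omega
      br := fun r u v => by
        obtain ⟨u', h1, h2, h3, h4⟩ := db_br hl hR r.2 u.2 v.1
        exact ⟨⟨u', h1⟩, db_add h2, h3, fun h => h4 ((db_btw r.2 h1 v.2).1 h)⟩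
      fin := hfin
      cnt := hcnt }
  have hiso : ∀ (g : G) (u v : Y), P165T.dd (MulAction.toPermHom G Y g u)
      (MulAction.toPermHom G Y g v) = P165T.dd u v := fun g u v => hd g u.1 v.1
  refine P165T.main4 hG (ρ := MulAction.toPermHom G Y) ⟨hiso, hcof,
    P165T.irr_of_noend hiso hcof fun r h1 h2 => ?_⟩ ⟨o, ho⟩
  obtain ⟨s', a1, a2, a3⟩ := ray_of_br (r := fun n => (r n).1) (fun n => (r n).2) h1 h2
  obtain ⟨g, hg⟩ := noend s' a1 a2
  refine ⟨g, fun ⟨k, l, h⟩ => hg (a3 (g • ·) (iso g) ⟨k, l, fun n => ?_⟩)⟩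
  exact congrArg Subtype.val (h n)

theorem main9 {Γ : SimpleGraph V} {G : Type u} [Group G] [MulAction G V] (hG : Geom Γ G)
    {X : Type*} {T : SimpleGraph X} [MulAction G X] (hT : NonElemAct T G) : pc Γ < pu Γ := by
  have hc := hT.tree.isConnected
  have hd := P165T.dist_smul' hc hT.adj
  letI : TrW X :=
    { d := T.dist
      self := fun _ => SimpleGraph.dist_self
      comm := fun _ _ => SimpleGraph.dist_comm
      tri := fun _ _ _ => hc.dist_triangle
      eqz := fun _ _ h => hc.dist_eq_zero_iff.1 h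
      uniq := fun _ _ _ _ h h' e => P165T.tr_uniq hT.tree h h' e
      pre := fun r v _ hj => P165T.tr_pre hc r v hj
      trip := P165T.tr_trip hT.tree
      fin := P165T.tr_fin hc hT.locfin }
  obtain ⟨o, ho⟩ := hT.branch
  obtain ⟨a, ha, b, hb, c, hc', h1, h2, h3⟩ := (Set.two_lt_ncard (hT.locfin o)).1 ho
  refine main8 hG hd hT.cof (fun v => ?_) (o := o) ⟨a, b, c,
    SimpleGraph.dist_eq_one_iff_adj.2 ha, SimpleGraph.dist_eq_one_iff_adj.2 hb,
    SimpleGraph.dist_eq_one_iff_adj.2 hc', h1, h2, h3⟩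
    fun r k1 k2 => hT.noend r (fun n => SimpleGraph.dist_eq_one_iff_adj.1 (k1 n)) k2
  obtain ⟨a, ha, b, hb, h⟩ := (Set.one_lt_ncard (hT.locfin v)).1 (hT.deg v)
  exact ⟨a, b, SimpleGraph.dist_eq_one_iff_adj.2 ha, SimpleGraph.dist_eq_one_iff_adj.2 hb, h⟩

end Vale.Agent.P165W
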