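import Vale.Agent.P165W.Fin
import Vale.Agent.P165W.Defs2

open Classical

namespace Vale.Agent.P165W

open Vale.Agent.P151 Vale.Agent.P165

universe u

variable {V : Type*}

section
variable {TX : Type*} [TrW TX] {G : Type u} [Group G] [MulAction G TX]

/-- vertices between arbitrarily far orbit points -/
def Core (G : Type u) [Group G] [MulAction G TX] (o v : TX) : Prop :=
  ∀ n : ℕ, ∃ g g' : G, n ≤ dd v (g • o) ∧ n ≤ dd v (g' • o) ∧
    dd (g • o) (g' • o) = dd v (g • o) + dd v (g' • o)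

lemma core_side {x v a b : TX} (h : dd a b = dd v a + dd v b) : a ∈ cone x v ∨ b ∈ cone x v := by
  by_contra k
  rw [not_or] at k
  have hx : x ≠ v := by
    rintro rfl
    exact k.1 (by rw [cone_self]; trivial)
  obtain ⟨q, -, -, -, h4⟩ := geo_pred hx
  have e1 := h4 a k.1
  have e2 := h4 b k.2
  have e3 := dd_tri a q b
  have := dd_comm q b
  have := dd_comm v a
  have := dd_comm v b
  omega

lemma core_conv {o v w x : TX} (hv : Core G o v) (hw : Core G o w) (h : w ∈ cone v x) :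
    Core G o x := by
  by_cases e1 : x = v
  · rwa [e1]
  by_cases e2 : x = w
  · rwa [e2]
  intro n
  have k1 : ∃ g : G, n ≤ dd v (g • o) ∧ g • o ∈ cone x v := by
    obtain ⟨g, g', a1, a2, a3⟩ := hv n
    exact (core_side (x := x) a3).elim (fun k => ⟨g, a1, k⟩) fun k => ⟨g', a2, k⟩
  have k2 : ∃ g : G, n ≤ dd w (g • o) ∧ g • o ∈ cone x w := by
    obtain ⟨g, g', a1, a2, a3⟩ := hw n
    exact (core_side (x := x) a3).elim (fun k => ⟨g, a1, k⟩) fun k => ⟨g', a2, k⟩
  obtain ⟨g, a1, a2⟩ := k1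
  obtain ⟨g', b1, b2⟩ := k2
  have c1 : dd x (g • o) = dd x v + dd v (g • o) := a2
  have c2 : dd x (g' • o) = dd x w + dd w (g' • o) := b2
  have c3 : dd v w = dd v x + dd x w := h
  have c4 : dd x v ≠ 0 := fun e => e1 (dd_eq_zero.1 e)
  have c5 : dd x w ≠ 0 := fun e => e2 (dd_eq_zero.1 e)
  have c6 := dd_comm x v
  have c7 := dd_comm v w
  have d1 : g • o ∉ cone v x := fun k => by
    have : dd v (g • o) = dd v x + dd x (g • o) := k
    omega
  have d2 : v ∉ cone x w := fun k => by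
    have : dd x v = dd x w + dd w v := k
    omega
  have d3 : g' • o ∈ cone v x := cone_trans h (by rwa [cone_reroot d2])
  have d4 := cone_cut d1 d3
  have := dd_comm x (g • o)
  exact ⟨g, g', by omega, by omega, by omega⟩

lemma core_dirs {ι : Type} [Fintype ι] {o v : TX} (hι : ∀ i : ι, ∃ j, i ≠ j)
    (h : ∀ n : ℕ, ∃ g : ι → G, (∀ i, n ≤ dd v (g i • o)) ∧
      ∀ i j, i ≠ j → dd (g i • o) (g j • o) = dd v (g i • o) + dd v (g j • o)) :
    ∃ a : ι → TX, (∀ i, Core G o (a i) ∧ dd v (a i) = 1) ∧ ∀ i j, i ≠ j → a i ≠ a j := by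
  choose g h1 h2 using h
  choose a a1 a2 using fun n i => exists_pre v (g (n + 1) i • o) (j := 1)
    ((Nat.le_add_left 1 n).trans (h1 (n + 1) i))
  haveI : Finite {x : TX // dd v x ≤ 1} := (ball_fin v 1).to_subtype
  obtain ⟨f, hf⟩ := Finite.exists_infinite_fiber
    (fun n => (fun i => ⟨a n i, (a1 n i).le⟩ : ι → {x : TX // dd v x ≤ 1}))
  have hf' : ∀ n, ∃ m, n ≤ m ∧ ∀ i, a m i = (f i).1 := by
    intro n
    obtain ⟨m, hm, hm'⟩ := (Set.infinite_coe_iff.1 hf).exists_gt n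
    exact ⟨m, hm'.le, fun i => congrArg Subtype.val (congrFun hm i)⟩
  refine ⟨fun i => (f i).1, fun i => ⟨fun n => ?_, ?_⟩, fun i j hij e => ?_⟩
  · obtain ⟨m, hm, e⟩ := hf' n
    obtain ⟨j, hj⟩ := hι i
    have c1 : dd v (g (m + 1) i • o) = dd v (a m i) + dd (a m i) (g (m + 1) i • o) := a2 m i
    have c2 := h2 (m + 1) i j hj
    have c3 := h1 (m + 1) i
    have c4 := h1 (m + 1) j
    have c5 := a1 m i
    have c6 := dd_tri (g (m + 1) i • o) (a m i) (g (m + 1) j • o)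
    have c7 := dd_tri (a m i) v (g (m + 1) j • o)
    have c8 := dd_comm (a m i) v
    have c9 := dd_comm (a m i) (g (m + 1) i • o)
    beta_reduce
    rw [← e i]
    exact ⟨g (m + 1) i, g (m + 1) j, by omega, by omega, by omega⟩
  · obtain ⟨m, -, e⟩ := hf' 0
    beta_reduce
    rw [← e i]
    exact a1 m i
  · obtain ⟨m, -, e'⟩ := hf' 0
    have e2 : a m i = a m j := by rw [e' i, e' j]; exact e
    have c1 : dd v (g (m + 1) i • o) = dd v (a m i) + dd (a m i) (g (m + 1) i • o) := a2 m i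
    have c1' : dd v (g (m + 1) j • o) = dd v (a m j) + dd (a m j) (g (m + 1) j • o) := a2 m j
    have c2 := h2 (m + 1) i j hij
    have c5 := a1 m i
    have c6 := dd_tri (g (m + 1) i • o) (a m i) (g (m + 1) j • o)
    have c9 := dd_comm (a m i) (g (m + 1) i • o)
    rw [← e2] at c1'
    omega

lemma core_smul (iso : ∀ (g : G) (u v : TX), dd (g • u) (g • v) = dd u v) {o v : TX} (h : G)
    (hv : Core G o v) : Core G o (h • v) := fun n => by
  obtain ⟨g, g', a1, a2, a3⟩ := hv n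
  exact ⟨h * g, h * g', by rwa [mul_smul, iso], by rwa [mul_smul, iso], by
    rw [mul_smul, mul_smul, iso, iso, iso, a3]⟩

lemma core_cof {Γ : SimpleGraph V} [MulAction G V] (hG : Geom Γ G)
    (iso : ∀ (g : G) (u v : TX), dd (g • u) (g • v) = dd u v) (o : TX) :
    ∃ s : Finset TX, ∀ v, Core G o v → ∃ g : G, g • v ∈ s := by
  obtain ⟨κ, hκ⟩ := exists_coord hG.free
  obtain ⟨x₀⟩ := hG.conn.nonempty
  let π : V → TX := fun x => κ x • o
  have hπ : ∀ (g : G) x, π (g • x) = g • π x := fun g x => by simp only [π, hκ, mul_smul]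
  have hπ' : ∀ g : G, π ((g * (κ x₀)⁻¹) • x₀) = g • o := fun g => by simp [π, hκ]
  obtain ⟨s, hs⟩ := hG.cof
  let L := s.sup fun i => (hG.locfin i).toFinset.sup fun j => dd (π i) (π j)
  have hL : ∀ a b, Γ.Adj a b → dd (π a) (π b) ≤ L := by
    intro a b hab
    obtain ⟨g, hg⟩ := hs a
    rw [← iso g, ← hπ, ← hπ]
    refine le_trans ?_ (Finset.le_sup
      (f := fun i => (hG.locfin i).toFinset.sup fun j => dd (π i) (π j)) hg)
    exact Finset.le_sup (f := fun j => dd (π (g • a)) (π j))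
      ((hG.locfin _).mem_toFinset.2 ((hG.adj g a b).2 hab))
  refine ⟨s.biUnion fun i => (ball_fin (π i) L).toFinset, fun v hv => ?_⟩
  obtain ⟨g₁, g₂, a1, -, a3⟩ := hv 1
  obtain ⟨p⟩ := hG.conn.preconnected ((g₂ * (κ x₀)⁻¹) • x₀) ((g₁ * (κ x₀)⁻¹) • x₀)
  obtain ⟨d, -, d1, d2⟩ := p.exists_boundary_dart {x | π x ∈ cone (g₁ • o) v}
    (by
      change π _ ∈ cone (g₁ • o) v
      rw [hπ', geo_mem, a3, dd_comm v])
    (by
      change π _ ∉ cone (g₁ • o) v
      rw [hπ']
      exact root_not_mem_cone fun e => by rw [e, dd_self] at a1; omega)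
  have k₃ := cone_cut d2 d1
  have k₄ := hL _ _ d.adj.symm
  obtain ⟨g, hg⟩ := hs d.snd
  refine ⟨g, Finset.mem_biUnion.2 ⟨_, hg, ?_⟩⟩
  rw [Set.Finite.mem_toFinset]
  change dd (π (g • d.snd)) (g • v) ≤ L
  rw [hπ, iso]
  omega

theorem main10 {Γ : SimpleGraph V} [MulAction G V] (hG : Geom Γ G)
    (iso : ∀ (g : G) (u v : TX), dd (g • u) (g • v) = dd u v) {o v₀ : TX}
    (h3 : ∀ n : ℕ, ∃ g : Fin 3 → G, (∀ i, n ≤ dd v₀ (g i • o)) ∧
      ∀ i j, i ≠ j → dd (g i • o) (g j • o) = dd v₀ (g i • o) + dd v₀ (g j • o))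
    (noend : ∀ r : ℕ → TX, (∀ n, dd (r n) (r (n + 1)) = 1) → (∀ n, dd (r 0) (r n) = n) →
      ∃ g : G, ¬ ∃ k l : ℕ, ∀ n, g • r (n + k) = r (n + l)) : pc Γ < pu Γ := by
  let Y := {v : TX // Core G o v}
  letI : MulAction G Y :=
    { smul := fun g v => ⟨g • v.1, core_smul iso g v.2⟩
      one_smul := fun v => Subtype.ext (one_smul G v.1)
      mul_smul := fun g g' v => Subtype.ext (mul_smul g g' v.1) }
  letI : TrW Y :=
    { d := fun u v => dd u.1 v.1
      self := fun u => dd_self u.1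
      comm := fun u v => dd_comm u.1 v.1
      tri := fun u v w => dd_tri u.1 v.1 w.1
      eqz := fun u v h => Subtype.ext (dd_eq_zero.1 h)
      uniq := fun r u u' v h h' e => Subtype.ext (cone_uniq h h' e)
      pre := fun r v j hj => by
        obtain ⟨u, h1, h2⟩ := exists_pre r.1 v.1 hj
        exact ⟨⟨u, core_conv r.2 v.2 h2⟩, h1, h2⟩
      trip := fun r v t => by
        obtain ⟨u, h1, h2, h3⟩ := tripod r.1 v.1 t.1
        exact ⟨⟨u, core_conv r.2 v.2 h1⟩, h1, h2, h3⟩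
      fin := fun r n => (ball_fin r.1 n).preimage Subtype.val_injective.injOn }
  have hv₀ : Core G o v₀ := fun n => by
    obtain ⟨g, a1, a2⟩ := h3 n
    exact ⟨g 0, g 1, a1 0, a1 1, a2 0 1 (by decide)⟩
  obtain ⟨a, a1, a2⟩ := core_dirs (by decide) h3
  obtain ⟨s, hs⟩ := core_cof hG iso o
  refine main8 (TX := Y) hG (fun g u v => iso g u.1 v.1) ⟨s.subtype _, fun v => ?_⟩ (fun v => ?_)
    (o := ⟨v₀, hv₀⟩) ⟨⟨a 0, (a1 0).1⟩, ⟨a 1, (a1 1).1⟩, ⟨a 2, (a1 2).1⟩, (a1 0).2, (a1 1).2,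
      (a1 2).2, fun e => a2 0 1 (by decide) (congrArg Subtype.val e),
      fun e => a2 0 2 (by decide) (congrArg Subtype.val e),
      fun e => a2 1 2 (by decide) (congrArg Subtype.val e)⟩ fun r h1 h2 => ?_
  · obtain ⟨g, hg⟩ := hs v.1 v.2
    exact ⟨g, Finset.mem_subtype.2 hg⟩
  · obtain ⟨b, b1, b2⟩ := core_dirs (G := G) (ι := Bool) (o := o) (v := v.1) (by decide) fun n => by
      obtain ⟨g, g', c1, c2, c3⟩ := v.2 n
      refine ⟨fun i => cond i g g', fun i => by cases i <;> assumption, fun i j hij => ?_⟩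
      cases i <;> cases j
      · exact absurd rfl hij
      · change dd (g' • o) (g • o) = dd v.1 (g' • o) + dd v.1 (g • o)
        rw [dd_comm, c3, add_comm]
      · exact c3
      · exact absurd rfl hij
    exact ⟨⟨b true, (b1 _).1⟩, ⟨b false, (b1 _).1⟩, (b1 _).2, (b1 _).2,
      fun e => b2 true false (by decide) (congrArg Subtype.val e)⟩
  · obtain ⟨g, hg⟩ := noend (fun n => (r n).1) h1 h2
    exact ⟨g, fun ⟨k, l, h⟩ => hg ⟨k, l, fun n => congrArg Subtype.val (h n)⟩⟩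

end

theorem main11 {Γ : SimpleGraph V} {G : Type u} [Group G] [MulAction G V] (hG : Geom Γ G)
    {X : Type*} {T : SimpleGraph X} [MulAction G X] (hT : NonElem T G) : pc Γ < pu Γ := by
  have hc := hT.tree.isConnected
  have hd := P165T.dist_smul' hc hT.adj
  letI : TrW X :=
    { d := T.dist
      self := fun _ => SimpleGraph.dist_self
      comm := fun _ _ => SimpleGraph.dist_comm
      tri := fun _ _ _ => hc.dist_triangle
      eqz := fun _ _ h => hc.dist_eq_zero_iff.1 h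
      uniq := fun _ _ _ _ h h' e => P165T.tr_uniq hT.tree h h' e
      pre := fun r v _ hj => P165T.tr_pre hc r v hj
      trip := P165T.tr_trip hT.tree
      fin := P165T.tr_fin hc hT.locfin }
  obtain ⟨o, v, h⟩ := hT.three
  exact main10 hG hd h
    fun r k1 k2 => hT.noend r (fun n => SimpleGraph.dist_eq_one_iff_adj.1 (k1 n)) k2

end Vale.Agent.P165W
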