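import Vale.Agent.P165W.Base

open Classical

namespace Vale.Agent.P165W

variable {TX : Type*} [TrW TX]

lemma w1_fin (u v : TX) : {b | v ∈ cone u b}.Finite :=
  (ball_fin u (dd u v)).subset fun b hb => by
    have h : dd u v = dd u b + dd b v := hb
    change TrW.d u b ≤ dd u v
    change dd u b ≤ dd u v
    omega

lemma w1_fin' (u v : TX) : {b | Br b ∧ v ∈ cone u b ∧ b ≠ u}.Finite :=
  (w1_fin u v).subset fun _ hb => hb.2.1

lemma db_self (u : TX) : db u u = 0 := by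
  unfold db
  rw [Set.ncard_eq_zero (w1_fin' u u), Set.eq_empty_iff_forall_notMem]
  rintro b ⟨-, h, h'⟩
  rw [geo_mem, dd_self] at h
  exact h' (dd_eq_zero.1 (by omega))

lemma db_add {r u v : TX} (h : v ∈ cone r u) : db r v = db r u + db u v := by
  unfold db
  rw [← Set.ncard_union_eq ?_ (w1_fin' r u) (w1_fin' u v)]
  · congr 1
    ext b
    constructor
    · rintro ⟨h1, h2, h3⟩
      by_cases hle : dd r b ≤ dd r u
      · exact Or.inl ⟨h1, cone_nest h2 h hle, h3⟩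
      · have h4 := cone_nest h h2 (by omega)
        refine Or.inr ⟨h1, ?_, fun e => hle (e ▸ le_rfl)⟩
        rw [geo_mem] at *
        omega
    · rintro (⟨h1, h2, h3⟩ | ⟨h1, h2, h3⟩)
      · exact ⟨h1, cone_trans h2 h, h3⟩
      · have h4 := dd_tri r u b
        have h5 := dd_tri r b v
        have h6 : dd u b ≠ 0 := fun e => h3 (dd_eq_zero.1 e).symm
        rw [geo_mem] at h h2
        refine ⟨h1, by rw [geo_mem]; omega, fun e => ?_⟩
        subst e
        have := dd_comm u b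
        omega
  · rw [Set.disjoint_left]
    rintro b ⟨-, h2, -⟩ ⟨-, h4, h5⟩
    rw [geo_mem] at h h2 h4
    have h6 := dd_tri r b v
    have h7 := dd_comm u b
    exact h5 (dd_eq_zero.1 (by omega))

lemma db_pos {u v : TX} (hv : Br v) (h : u ≠ v) : 0 < db u v :=
  (Set.ncard_pos (w1_fin' u v)).2 ⟨v, hv, self_mem_cone u v, h.symm⟩

lemma w1_sym {u v b : TX} (h : v ∈ cone u b) : u ∈ cone v b := by
  rw [geo_mem] at *
  have := dd_comm u v
  have := dd_comm u b
  have := dd_comm v b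
  omega

lemma w1_diff {u v : TX} (hu : Br u) : db u v = {b | Br b ∧ v ∈ cone u b}.ncard - 1 := by
  have hm : u ∈ {b | Br b ∧ v ∈ cone u b} := ⟨hu, by rw [cone_self]; trivial⟩
  rw [← Set.ncard_diff_singleton_of_mem hm]
  unfold db
  congr 1
  ext b
  simp only [Set.mem_diff, Set.mem_singleton_iff]
  exact and_assoc.symm

lemma db_comm {u v : TX} (hu : Br u) (hv : Br v) : db u v = db v u := by
  rw [w1_diff hu, w1_diff hv]
  have : {b | Br b ∧ v ∈ cone u b} = {b | Br b ∧ u ∈ cone v b} :=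
    Set.ext fun b => and_congr_right fun _ => ⟨w1_sym, w1_sym⟩
  rw [this]

lemma db_le (u v : TX) : db u v ≤ dd u v := by
  have h := Set.ncard_le_ncard_of_injOn (s := {b | Br b ∧ v ∈ cone u b ∧ b ≠ u})
    (t := (Finset.range (dd u v) : Set ℕ)) (fun b => dd u b - 1) (fun b hb => ?_)
    (fun b hb b' hb' e => ?_) (Finset.finite_toSet _)
  · rwa [Set.ncard_coe_finset, Finset.card_range] at h
  · have h1 : dd u v = dd u b + dd b v := hb.2.1
    have h2 : dd u b ≠ 0 := fun e => hb.2.2 (dd_eq_zero.1 e).symm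
    rw [Finset.mem_coe, Finset.mem_range]
    omega
  · have h2 : dd u b ≠ 0 := fun e => hb.2.2 (dd_eq_zero.1 e).symm
    have h3 : dd u b' ≠ 0 := fun e => hb'.2.2 (dd_eq_zero.1 e).symm
    have h4 : dd u b - 1 = dd u b' - 1 := e
    exact cone_uniq hb.2.1 hb'.2.1 (by omega)

lemma w1_ne {m x y a b : TX} (h : dd x y = dd x m + dd m y) (ha : dd m a = 1) (hx : x ∈ cone m a)
    (hy : y ∈ cone m b) : a ≠ b := by
  rintro rfl
  rw [geo_mem] at hx hy
  have := dd_tri x a y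
  have := dd_comm x a
  have := dd_comm x m
  omega

/-- the centre of three branch vertices is a branch vertex -/
lemma br_trip {r v t : TX} (hr : Br r) (hv : Br v) (ht : Br t) :
    ∃ m, Br m ∧ v ∈ cone r m ∧ t ∈ cone r m ∧ t ∈ cone v m := by
  obtain ⟨m, h1, h2, h3⟩ := tripod r v t
  have h4 : t ∈ cone v m := by
    rw [geo_mem] at *
    have := dd_comm v m
    omega
  refine ⟨m, ?_, h1, h2, h4⟩
  by_cases e1 : m = r
  · exact e1 ▸ hr
  by_cases e2 : m = v
  · exact e2 ▸ hv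
  by_cases e3 : m = t
  · exact e3 ▸ ht
  have k : ∀ x, m ≠ x → ∃ a, dd m a = 1 ∧ x ∈ cone m a := fun x hx =>
    exists_pre m x (Nat.one_le_iff_ne_zero.2 fun e => hx (dd_eq_zero.1 e))
  obtain ⟨a, a1, a2⟩ := k r e1
  obtain ⟨b, b1, b2⟩ := k v e2
  obtain ⟨c, c1, c2⟩ := k t e3
  exact ⟨a, b, c, a1, b1, c1, w1_ne h1 a1 a2 b2, w1_ne h2 a1 a2 c2, w1_ne h4 b1 b2 c2⟩

lemma db_iso (f : TX ≃ TX) (hf : ∀ u v, dd (f u) (f v) = dd u v) (u v : TX) :
    (Br (f u) ↔ Br u) ∧ db (f u) (f v) = db u v := by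
  have hB : ∀ x, Br (f x) ↔ Br x := fun x => by
    constructor
    · rintro ⟨a, b, c, h1, h2, h3, h4, h5, h6⟩
      obtain ⟨a, rfl⟩ := f.surjective a
      obtain ⟨b, rfl⟩ := f.surjective b
      obtain ⟨c, rfl⟩ := f.surjective c
      rw [hf] at h1 h2 h3
      exact ⟨a, b, c, h1, h2, h3, fun e => h4 (e ▸ rfl), fun e => h5 (e ▸ rfl),
        fun e => h6 (e ▸ rfl)⟩
    · rintro ⟨a, b, c, h1, h2, h3, h4, h5, h6⟩
      exact ⟨f a, f b, f c, (hf _ _).trans h1, (hf _ _).trans h2, (hf _ _).trans h3,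
        f.injective.ne h4, f.injective.ne h5, f.injective.ne h6⟩
  refine ⟨hB u, ?_⟩
  unfold db
  rw [← Set.ncard_image_of_injective {b | Br b ∧ v ∈ cone u b ∧ b ≠ u} f.injective]
  congr 1
  ext b
  obtain ⟨b, rfl⟩ := f.surjective b
  rw [f.injective.mem_set_image]
  change Br (f b) ∧ dd (f u) (f v) = dd (f u) (f b) + dd (f b) (f v) ∧ f b ≠ f u ↔
    Br b ∧ dd u v = dd u b + dd b v ∧ b ≠ u
  rw [hB, hf, hf, hf, f.injective.ne_iff]

end Vale.Agent.P165W
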