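import Vale.Agent.P165W.W1

open Classical

namespace Vale.Agent.P165W

variable {TX : Type*} [TrW TX]

lemma db_btw {r u v : TX} (hr : Br r) (hu : Br u) (hv : Br v) :
    db r v = db r u + db u v ↔ v ∈ cone r u := by
  refine ⟨fun h => ?_, db_add⟩
  obtain ⟨m, hm, h1, h2, h3⟩ := br_trip hr hv hu
  have a1 := db_add h1
  have a2 := db_add h2
  have a3 := db_add h3
  have a4 := db_comm hu hv
  have a5 := db_comm hv hm
  by_cases e : m = u
  · rwa [← e]
  · have := db_pos hu e
    omega
lemma db_tri {u v w : TX} (hu : Br u) (hv : Br v) (hw : Br w) : db u w ≤ db u v + db v w := by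
  obtain ⟨m, hm, h1, h2, h3⟩ := br_trip hu hw hv
  have a1 := db_add h1
  have a2 := db_add h2
  have a3 := db_add h3
  have a4 := db_comm hw hv
  have a5 := db_comm hw hm
  omega
lemma db_uniq {r u u' v : TX} (hu : Br u) (hu' : Br u') (h : v ∈ cone r u) (h' : v ∈ cone r u')
    (e : db r u = db r u') : u = u' := by
  by_contra hne
  rcases le_total (dd r u) (dd r u') with hle | hle
  · have := db_add (cone_nest h h' hle)
    have := db_pos hu' hne
    omega
  · have := db_add (cone_nest h' h hle)
    have := db_pos hu (Ne.symm hne)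
    omega
lemma db_pre {r : TX} (hr : Br r) (v : TX) {j : ℕ} (hj : j ≤ db r v) :
    ∃ u, Br u ∧ db r u = j ∧ v ∈ cone r u := by
  induction h : dd r v generalizing v with
  | zero =>
    have := db_le r v
    refine ⟨r, hr, by rw [db_self]; omega, ?_⟩
    rw [cone_self]
    trivial
  | succ n ih =>
    obtain ⟨q, q1, q2⟩ := exists_pre r v (j := n) (by omega)
    have e := db_add q2
    have l := db_le q v
    by_cases hq : j ≤ db r q
    · obtain ⟨u, u1, u2, u3⟩ := ih q hq q1
      exact ⟨u, u1, u2, cone_trans u3 q2⟩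
    rw [geo_mem] at q2
    obtain ⟨b, b1, b2, b3⟩ := Set.nonempty_of_ncard_ne_zero (show db q v ≠ 0 by omega)
    have n0 : dd q b ≠ 0 := fun e => b3 (dd_eq_zero.1 e).symm
    rw [geo_mem] at b2
    have hb : b = v := dd_eq_zero.1 (by omega)
    exact ⟨v, hb ▸ b1, by omega, self_mem_cone r v⟩

end Vale.Agent.P165W
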