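import Vale.Agent.P165W.W2

open Classical

namespace Vale.Agent.P165W

variable {TX : Type*} [TrW TX]

lemma W3_adj (r : TX) {u a : TX} (h : dd u a = 1) :
    dd r u = dd r a + 1 ∨ dd r a = dd r u + 1 := by
  obtain ⟨h1, h2⟩ := geo_adj h
  by_cases hr : r ∈ cone u a
  · exact Or.inl (h1 r hr)
  · exact Or.inr (h2 r hr)

lemma W3_par {r u a b : TX} (ha : dd u a = 1) (hb : dd u b = 1) (h1 : dd r u = dd r a + 1)
    (h2 : dd r u = dd r b + 1) : a = b := by
  have := dd_comm u a
  have := dd_comm u b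
  exact cone_uniq (r := r) (v := u) (by rw [geo_mem]; omega) (by rw [geo_mem]; omega) (by omega)

lemma W3_down (hl : ∀ v : TX, ∃ a b, dd v a = 1 ∧ dd v b = 1 ∧ a ≠ b) (r c : TX) (n : ℕ) :
    ∃ t, t ∈ cone r c ∧ dd c t = n := by
  induction n with
  | zero => exact ⟨c, self_mem_cone r c, dd_self c⟩
  | succ n ih =>
    obtain ⟨t, h1, h2⟩ := ih
    have key : ∀ a, dd t a = 1 → dd r a = dd r t + 1 → a ∈ cone r c ∧ dd c a = n + 1 := by
      intro a ha hb
      have h3 : a ∈ cone r c := cone_trans h1 (by rw [geo_mem]; omega)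
      refine ⟨h3, ?_⟩
      rw [geo_mem] at h1 h3
      omega
    obtain ⟨a, b, ha, hb, hab⟩ := hl t
    rcases W3_adj r ha with p | p
    · rcases W3_adj r hb with q | q
      · exact absurd (W3_par ha hb p q) hab
      · exact ⟨b, key b hb q⟩
    · exact ⟨a, key a ha p⟩

lemma W3_child (r : TX) {u : TX} (hu : Br u) (v : TX) :
    ∃ a, dd u a = 1 ∧ dd r a = dd r u + 1 ∧ v ∉ cone r a := by
  obtain ⟨a, b, c, ha, hb, hc, hab, hac, hbc⟩ := hu
  by_contra h
  have h' : ∀ a, dd u a = 1 → dd r a = dd r u + 1 → v ∈ cone r a := fun a h1 h2 => by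
    by_contra h3
    exact h ⟨a, h1, h2, h3⟩
  have two : ∀ a b, dd u a = 1 → dd u b = 1 → dd r a = dd r u + 1 → dd r b = dd r u + 1 →
      a = b := fun a b h1 h2 h3 h4 => cone_uniq (h' a h1 h3) (h' b h2 h4) (by omega)
  rcases W3_adj r ha with p | p <;> rcases W3_adj r hb with q | q <;>
    rcases W3_adj r hc with s | s
  · exact hab (W3_par ha hb p q)
  · exact hab (W3_par ha hb p q)
  · exact hac (W3_par ha hc p s)
  · exact hbc (two b c hb hc q s)
  · exact hbc (W3_par hb hc q s)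
  · exact hac (two a c ha hc p s)
  · exact hab (two a b ha hb p q)
  · exact hab (two a b ha hb p q)

lemma db_br (hl : ∀ v : TX, ∃ a b, dd v a = 1 ∧ dd v b = 1 ∧ a ≠ b) {R : ℕ}
    (hR : ∀ v : TX, ∃ z, Br z ∧ dd v z ≤ R) {r u : TX} (hr : Br r) (hu : Br u) (v : TX) :
    ∃ u', Br u' ∧ u' ∈ cone r u ∧ db r u' = db r u + 1 ∧ v ∉ cone r u' := by
  obtain ⟨a, h1, h2, h3⟩ := W3_child r hu v
  obtain ⟨t, h4, h5⟩ := W3_down hl r a R
  obtain ⟨z, h6, h7⟩ := hR t
  have h8 : z ∈ cone r a := CfgT_ball h4 (self_mem_cone r t) h5.ge h7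
  have ha : a ∈ cone r u := by rw [geo_mem]; omega
  have h9 : z ∈ cone r u := cone_trans ha h8
  have hne : u ≠ z := by
    rintro rfl
    rw [geo_mem] at h8
    omega
  have e1 := db_add h9
  have e2 := db_pos h6 hne
  obtain ⟨u', k1, k2, k3⟩ := db_pre hr z (j := db r u + 1) (by omega)
  by_cases hle : dd r a ≤ dd r u'
  · have k4 := cone_nest h8 k3 hle
    exact ⟨u', k1, cone_trans ha k4, k2, fun h => h3 (cone_trans k4 h)⟩
  · have k4 := db_add (cone_nest k3 h9 (by omega))
    omega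

lemma W3_step {R : ℕ} (hR : ∀ v : TX, ∃ z, Br z ∧ dd v z ≤ R) {u w : TX}
    (h : dd u w = 2 * R + 2) : 0 < db u w := by
  obtain ⟨y, h1, h2⟩ := exists_pre u w (j := R + 1) (by omega)
  obtain ⟨z, h3, h4⟩ := hR y
  obtain ⟨m, k1, k2, k3⟩ := tripod u w z
  have e1 := db_add k1
  rw [geo_mem] at h2 k1 k2
  have t1 := dd_tri u z y
  have t2 := dd_tri w y z
  have t3 := dd_tri u y z
  have c1 := dd_comm z y
  have c2 := dd_comm w y
  have c3 := dd_comm u m
  have hum : u ≠ m := by
    intro e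
    have := dd_eq_zero.2 e
    omega
  have hm : Br m := by
    by_cases hz : dd m z = 0
    · rwa [dd_eq_zero.1 hz]
    · obtain ⟨a, a1, a2⟩ := exists_pre m u (j := 1) (by omega)
      obtain ⟨b, b1, b2⟩ := exists_pre m w (j := 1) (by omega)
      obtain ⟨c, d1, d2⟩ := exists_pre m z (j := 1) (by omega)
      rw [geo_mem] at a2 b2 d2
      refine ⟨a, b, c, a1, b1, d1, ?_, ?_, ?_⟩
      · rintro rfl
        have := dd_tri u a w
        have := dd_comm u a
        omega
      · rintro rfl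
        have := dd_tri u a z
        have := dd_comm u a
        omega
      · rintro rfl
        have := dd_tri w b z
        have := dd_comm w b
        omega
  have := db_pos hm hum
  omega

lemma db_fin {R : ℕ} (hR : ∀ v : TX, ∃ z, Br z ∧ dd v z ≤ R) (u v : TX) :
    dd u v ≤ (2 * R + 2) * (db u v + 1) := by
  obtain ⟨n, hn⟩ : ∃ n, dd u v = n := ⟨_, rfl⟩
  induction n using Nat.strong_induction_on generalizing u with
  | _ n ih =>
    by_cases h : dd u v ≤ 2 * R + 2
    · exact h.trans (Nat.le_mul_of_pos_right _ (Nat.succ_pos _))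
    · obtain ⟨w, h1, h2⟩ := exists_pre u v (j := 2 * R + 2) (by omega)
      have e1 := db_add h2
      have e2 := W3_step hR h1
      rw [geo_mem] at h2
      have e3 := ih (dd w v) (by omega) w rfl
      have e4 : (2 * R + 2) * (db w v + 1 + 1) ≤ (2 * R + 2) * (db u v + 1) :=
        Nat.mul_le_mul_left _ (by omega)
      rw [Nat.mul_succ] at e4
      omega

end Vale.Agent.P165W
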